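import Vale.Agent.P249.Upper

/-!
# P249 : `d_p(n, D) ≤ C n (log n)^{p+3}` for every `1 < p < ∞`
-/

namespace Vale.Agent.Results.P249.NearLinear

open _root_.P249

/-- For all `1 < p < ∞` and `D > 1` there is a constant `C` such that for all `n ≥ 2` the number
`d_p(n, D)` is at most `C n (log n)^{p+3}` (and it is attained: dimension `d_p(n, D)` suffices). -/
theorem result.{u} : ∀ p D : ℝ, 1 < p → 1 < D → ∃ C : ℝ, 0 < C ∧ ∀ n : ℕ, 2 ≤ n →
    Suffices.{u} p D n (dp.{u} p D n) ∧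
      (dp.{u} p D n : ℝ) ≤ C * n * Real.log n ^ (p + 3) := by
  intro p D hp hD
  obtain ⟨C, hC, h⟩ := upper.{u} hp.le hD
  refine ⟨C, hC, fun n hn => ?_⟩
  obtain ⟨d, hd, hs⟩ := h n hn
  refine ⟨Nat.sInf_mem (s := {d | Suffices.{u} p D n d}) ⟨d, hs⟩, ?_⟩
  have h1 : dp.{u} p D n ≤ d := Nat.sInf_le hs
  have h2 : (dp.{u} p D n : ℝ) ≤ d := by exact_mod_cast h1
  exact h2.trans hd

end Vale.Agent.Results.P249.NearLinear
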