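import Vale.Agent.P249.Upper
import Vale.Agent.P249.Lower

/-!
# P249 : `c (log n / log log n)^{p/2} ≤ d_p(n, D) ≤ C n (log n)^{p+3}` for every `p > 2`
-/

namespace Vale.Agent.Results.P249.TwoSided

open _root_.P249

/-- For all `p > 2` and `D > 1` there are constants `c, C > 0` such that for all `n ≥ 81`
`c (log n / log log n)^{p/2} ≤ d_p(n, D) ≤ C n (log n)^{p+3}`. -/
theorem result : ∀ p D : ℝ, 2 < p → 1 < D → ∃ c C : ℝ, 0 < c ∧ 0 < C ∧ ∀ n : ℕ, 81 ≤ n →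
    Suffices.{0} p D n (dp.{0} p D n) ∧
      c * (Real.log n / Real.log (Real.log n)) ^ (p / 2) ≤ (dp.{0} p D n : ℝ) ∧
      (dp.{0} p D n : ℝ) ≤ C * n * Real.log n ^ (p + 3) := by
  intro p D hp hD
  obtain ⟨C, hC, hup⟩ := upper.{0} (by linarith : 1 ≤ p) hD
  obtain ⟨c, hc, hlow⟩ := lower hp hD.le
  refine ⟨c, C, hc, hC, fun n hn => ?_⟩
  obtain ⟨d, hd, hs⟩ := hup n (by omega)
  have hmem : Suffices.{0} p D n (dp.{0} p D n) :=
    Nat.sInf_mem (s := {d | Suffices.{0} p D n d}) ⟨d, hs⟩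
  have h1 : dp.{0} p D n ≤ d := Nat.sInf_le hs
  have h2 : (dp.{0} p D n : ℝ) ≤ d := by exact_mod_cast h1
  exact ⟨hmem, hlow n hn _ hmem, h2.trans hd⟩

end Vale.Agent.Results.P249.TwoSided
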